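import Vale.Agent.P159.TM.H943.Four

/-!
Assembly: `IGm`, `UV`, `IH`, `TOR` imply the window `WIN`.
-/

namespace Vale.Agent.P159.TM.H943

open Finset Vale.Agent.P159 Vale.Agent.P159.H353 Vale.Agent.P159.TM.SpecI Vale.Agent.P159.TM.H22
open Vale.Agent.P159.T1.H934

section torus

variable {n : ℕ} [NeZero n]

/-- the gradient -/
def gradH (n : ℕ) : (V n → ℤ) →+ (V n × Bool → ℤ) where
  toFun h e := h (tgt e) - h e.1
  map_zero' := by
    funext e
    simp
  map_add' h k := by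
    funext e
    simp only [Pi.add_apply]
    ring

lemma wt_eq (b ε : ℝ) (h : V n → ℤ) :
    wt b univ ∅ (full ε) h = wm (gradH n) (fun _ => b) (fun _ => ε) h := by
  unfold SpecI.wt wm W gm full
  simp only [Finset.notMem_empty, false_implies, implies_true, if_true, one_mul]
  congr 2
  rw [Finset.mul_sum]

lemma sg_wt {b ε : ℝ} (hb : 0 ≤ b) (hε : 0 < ε) : SG (wt (n := n) b univ ∅ (full ε)) := by
  have h1 := sg_wm (gradH n) (J := fun _ => b) (fun _ => hb) (m := fun _ => ε) (fun _ => hε)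
  have h2 : wt (n := n) b univ ∅ (full ε) = wm (gradH n) (fun _ => b) (fun _ => ε) := by
    funext h
    exact wt_eq b ε h
  rw [h2]
  exact h1

/-- the shift of the heights -/
def shE (t : V n) : (V n → ℤ) ≃ (V n → ℤ) where
  toFun h x := h (x + t)
  invFun h x := h (x - t)
  left_inv h := by
    funext x
    simp
  right_inv h := by
    funext x
    simp

omit [NeZero n] in
lemma tgt_add (e : V n × Bool) (t : V n) : tgt (e.1 + t, e.2) = tgt e + t := by
  unfold tgt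
  rcases e with ⟨x, d⟩
  cases d
  · simp only [Bool.false_eq_true, if_false]
    ext
    · simp only [Prod.fst_add]
      ring
    · rfl
  · simp only [if_true]
    ext
    · rfl
    · simp only [Prod.snd_add]
      ring

lemma wt_shift (b ε : ℝ) (t : V n) (h : V n → ℤ) :
    wt b univ ∅ (full ε) (shE t h) = wt b univ ∅ (full ε) h := by
  unfold SpecI.wt full
  simp only [Finset.notMem_empty, false_implies, implies_true, if_true, one_mul]
  have e1 : ∏ e : V n × Bool, wI b ((shE t h) (tgt e) - (shE t h) e.1) =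
      ∏ e : V n × Bool, wI b (h (tgt e) - h e.1) := by
    rw [← Equiv.prod_comp ((Equiv.addRight t).prodCongr (Equiv.refl Bool))
      (fun e : V n × Bool => wI b (h (tgt e) - h e.1))]
    refine Finset.prod_congr rfl fun e _ => ?_
    have h1 : ((Equiv.addRight t).prodCongr (Equiv.refl Bool)) e = (e.1 + t, e.2) := rfl
    rw [h1, tgt_add]
    rfl
  have e2 : ∑ x : V n, (((shE t h) x : ℤ) : ℝ) ^ 2 = ∑ x : V n, ((h x : ℤ) : ℝ) ^ 2 := by
    rw [← Equiv.sum_comp (Equiv.addRight t) (fun x : V n => ((h x : ℤ) : ℝ) ^ 2)]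
    rfl
  rw [e1, e2]

lemma ex_shift (b ε : ℝ) (t : V n) (F : (V n → ℤ) → ℝ) :
    ex b univ ∅ (full ε) (fun h => F (shE t h)) = ex b univ ∅ (full ε) F := by
  unfold SpecI.ex
  congr 1
  rw [← Equiv.tsum_eq (shE t) (fun h : V n → ℤ => wt b univ ∅ (full ε) h * F h)]
  exact tsum_congr fun h => by rw [wt_shift]

lemma gr_hh (x y : V n) : H22.Gr fun h : V n → ℤ => (h x : ℝ) * (h y : ℝ) := by
  have h1 : ∀ z : V n, H22.Gr fun h : V n → ℤ => (h z : ℝ) := by
    intro z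
    have := H22.Gr.lin (V := V n) (Pi.single z (1 : ℝ))
    refine this.mono fun h => ?_
    unfold H22.lin
    rw [Finset.sum_eq_single z]
    · simp
    · intro v _ hv
      rw [Pi.single_eq_of_ne hv, zero_mul]
    · intro hz
      exact absurd (Finset.mem_univ z) hz
  exact (h1 x).mul (h1 y)

lemma ex_double {b ε : ℝ} (hb : 0 ≤ b) (hε : 0 < ε) (c : V n → V n → ℝ) :
    ex b univ ∅ (full ε) (fun h : V n → ℤ => ∑ x, ∑ y, c x y * ((h x : ℝ) * (h y : ℝ))) =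
      ∑ x, ∑ y, c x y * ex b univ ∅ (full ε) (fun h : V n → ℤ => (h x : ℝ) * (h y : ℝ)) := by
  have hs : ∀ x y : V n, Summable fun h : V n → ℤ =>
      wt b univ ∅ (full ε) h * ((h x : ℝ) * (h y : ℝ)) := fun x y =>
    (sg_wt hb hε).sum (gr_hh x y)
  unfold SpecI.ex
  have h1 : ∑' h : V n → ℤ, wt b univ ∅ (full ε) h *
      (∑ x, ∑ y, c x y * ((h x : ℝ) * (h y : ℝ))) =
      ∑ x, ∑ y, c x y * ∑' h : V n → ℤ, wt b univ ∅ (full ε) h * ((h x : ℝ) * (h y : ℝ)) := by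
    have h2 : ∀ h : V n → ℤ, wt b univ ∅ (full ε) h *
        (∑ x, ∑ y, c x y * ((h x : ℝ) * (h y : ℝ))) =
        ∑ x, ∑ y, c x y * (wt b univ ∅ (full ε) h * ((h x : ℝ) * (h y : ℝ))) := by
      intro h
      rw [Finset.mul_sum]
      refine Finset.sum_congr rfl fun x _ => ?_
      rw [Finset.mul_sum]
      exact Finset.sum_congr rfl fun y _ => by ring
    rw [tsum_congr h2, Summable.tsum_finsetSum (fun x _ => summable_sum fun y _ =>
      (hs x y).mul_left (c x y))]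
    refine Finset.sum_congr rfl fun x _ => ?_
    rw [Summable.tsum_finsetSum (fun y _ => (hs x y).mul_left (c x y))]
    exact Finset.sum_congr rfl fun y _ => tsum_mul_left
  rw [h1, Finset.sum_div]
  refine Finset.sum_congr rfl fun x _ => ?_
  rw [Finset.sum_div]
  exact Finset.sum_congr rfl fun y _ => by ring

end torus

lemma cast_pow_two (k : ℕ) : ((2 ^ k : ℕ) : ℝ) = (2 : ℝ) ^ k := by push_cast; rfl

/-- the second moment of the mode `2 j` on the torus -/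
theorem exT_fm {b κ : ℝ} (hb : 0 ≤ b) (hκ : 0 < κ) {k j : ℕ} (hj : 1 ≤ j) (hk : 2 * j < 2 ^ k) :
    exT b κ k (fun h => fm k (2 * j) h ^ 2) = Ghat b κ k j / (2 * 4 ^ k) := by
  have hε : 0 < epsK κ k := by
    unfold epsK
    positivity
  have hnd : ¬ (2 ^ k ∣ 2 * j) := fun h => by
    have := Nat.le_of_dvd (by omega) h
    omega
  have h4 : ((4 : ℝ) ^ k) = (2 ^ k) ^ 2 := by
    rw [← pow_mul, mul_comm, pow_mul]
    norm_num
  have e1 : ∀ h : V (2 ^ k) → ℤ, fm k (2 * j) h ^ 2 =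
      ∑ x : V (2 ^ k), ∑ y : V (2 ^ k), ((1 / 4 ^ k) ^ 2 * (cw (2 ^ k) j x.1 * cw (2 ^ k) j y.1)) *
        ((h x : ℝ) * (h y : ℝ)) := by
    intro h
    have h1 : fm k (2 * j) h = ∑ x : V (2 ^ k), (1 / 4 ^ k) * (cw (2 ^ k) j x.1 * (h x : ℝ)) := by
      unfold fm cw
      rw [Finset.sum_div]
      refine Finset.sum_congr rfl fun x _ => ?_
      have : ((2 * j : ℕ) : ℝ) * Real.pi * (((x.1.val : ℝ) + 1 / 2) / 2 ^ k) =
          2 * Real.pi * j * (((x.1.val : ℝ) + 1 / 2) / ((2 ^ k : ℕ) : ℝ)) := by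
        push_cast
        ring
      rw [this]
      ring
    rw [h1, sq, Finset.sum_mul_sum]
    refine Finset.sum_congr rfl fun x _ => Finset.sum_congr rfl fun y _ => ?_
    ring
  unfold exT
  have e2 : (fun h : V (2 ^ k) → ℤ => fm k (2 * j) h ^ 2) = fun h => ∑ x : V (2 ^ k),
      ∑ y : V (2 ^ k), ((1 / 4 ^ k) ^ 2 * (cw (2 ^ k) j x.1 * cw (2 ^ k) j y.1)) *
        ((h x : ℝ) * (h y : ℝ)) := funext e1
  rw [e2, ex_double hb hε]
  set G : V (2 ^ k) → V (2 ^ k) → ℝ := fun x y =>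
    ex b univ ∅ (full (epsK κ k)) (fun h : V (2 ^ k) → ℤ => (h x : ℝ) * (h y : ℝ)) with hG
  have hinv : ∀ x y t : V (2 ^ k), G (x + t) (y + t) = G x y := by
    intro x y t
    have := ex_shift (n := 2 ^ k) b (epsK κ k) t (fun h : V (2 ^ k) → ℤ => (h x : ℝ) * (h y : ℝ))
    simp only [hG]
    exact this
  have e3 := sum_wave j hnd G hinv
  have e4 : ∑ x : V (2 ^ k), ∑ y : V (2 ^ k),
      ((1 / 4 ^ k) ^ 2 * (cw (2 ^ k) j x.1 * cw (2 ^ k) j y.1)) * G x y =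
      (1 / 4 ^ k) ^ 2 * ∑ x : V (2 ^ k), ∑ y : V (2 ^ k),
        (cw (2 ^ k) j x.1 * cw (2 ^ k) j y.1) * G x y := by
    rw [Finset.mul_sum]
    refine Finset.sum_congr rfl fun x _ => ?_
    rw [Finset.mul_sum]
    exact Finset.sum_congr rfl fun y _ => by ring
  rw [e4, e3]
  unfold Ghat
  have e5 : ∑ z : V (2 ^ k), G 0 z * Real.cos (2 * Real.pi * j * (z.1.val : ℝ) / ((2 ^ k : ℕ) : ℝ)) =
      ∑ z : V (2 ^ k), exT b κ k (fun h => (h 0 : ℝ) * (h z : ℝ)) *
        Real.cos (2 * Real.pi * j * (z.1.val : ℝ) / 2 ^ k) := by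
    refine Finset.sum_congr rfl fun z _ => ?_
    rw [cast_pow_two]
    rfl
  rw [e5, cast_pow_two, h4]
  have h2 : ((2 : ℝ) ^ k) ≠ 0 := by positivity
  field_simp

/-- **The window.** -/
theorem win_of {b : ℝ} (hb : 0 ≤ b) (h1 : IGm b) (h2 : UV b) (h3 : IVAR b) (h4 : ISUS b)
    (h5 : IH b) (h6 : TOR b) : WIN b := by
  intro hY
  obtain ⟨C, c, hC, hc, i₀, hi⟩ := h5 h3 h4
  refine ⟨2 * C, c, by positivity, hc, i₀, fun i hii j hj δ hδ => ?_⟩
  obtain ⟨k₁, hk₁⟩ := hi i hii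
  have hκ : (0 : ℝ) < 2 ^ i := by positivity
  obtain ⟨C', c', hC', hc', hUV⟩ := h2 (2 ^ i) hκ
  set Y := helicity b with hYd
  set D : ℝ := (2 ^ i) ^ 2 + Real.pi ^ 2 * ((2 * j : ℕ) : ℝ) ^ 2 / Y with hD
  have hDpos : 0 < D := by
    have : 0 ≤ Real.pi ^ 2 * ((2 * j : ℕ) : ℝ) ^ 2 / Y := by positivity
    have h7 : (0 : ℝ) < (2 ^ i) ^ 2 := by positivity
    linarith
  -- the level `a`
  have hlim : Filter.Tendsto (fun a : ℕ => C' * (2 : ℝ) ^ (-(c' * a))) Filter.atTop (nhds 0) := by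
    have h8 : ∀ a : ℕ, C' * (2 : ℝ) ^ (-(c' * a)) = C' * ((2 : ℝ) ^ (-c')) ^ a := by
      intro a
      rw [← Real.rpow_natCast, ← Real.rpow_mul (by norm_num)]
      ring_nf
    simp only [h8]
    have h9 : (2 : ℝ) ^ (-c') < 1 := Real.rpow_lt_one_of_one_lt_of_neg (by norm_num) (by linarith)
    have := (tendsto_pow_atTop_nhds_zero_of_lt_one (Real.rpow_nonneg (by norm_num) (-c')) h9).const_mul C'
    simpa using this
  have hδ' : 0 < δ / (4 * 4 ^ i) := by positivity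
  obtain ⟨a, ha⟩ := ((Metric.tendsto_atTop.1 hlim) (δ / (4 * 4 ^ i)) hδ')
  have ha' := ha a le_rfl
  rw [Real.dist_eq, sub_zero, abs_of_nonneg (by positivity)] at ha'
  have hδ1 : 0 < δ / 4 := by positivity
  obtain ⟨k₂, hk₂⟩ := h1 hY (2 ^ i) hκ a (2 * j) (by omega) (δ / 2) (by positivity)
  obtain ⟨k₃, hk₃⟩ : ∃ k₃ : ℕ, ∀ k ≥ k₃, 2 * j < 2 ^ k := by
    refine ⟨2 * j, fun k hk => lt_of_lt_of_le (Nat.lt_two_pow_self) (Nat.pow_le_pow_right (by norm_num) hk)⟩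
  refine ⟨max (max k₁ k₂) (max k₃ a), fun k hk => ?_⟩
  have hka : a ≤ k := (le_max_right _ _).trans ((le_max_right _ _).trans hk)
  have hkk1 : k₁ ≤ k := (le_max_left _ _).trans ((le_max_left _ _).trans hk)
  have hkk2 : k₂ ≤ k := (le_max_right _ _).trans ((le_max_left _ _).trans hk)
  have hkk3 : 2 * j < 2 ^ k := hk₃ k ((le_max_left _ _).trans ((le_max_right _ _).trans hk))
  -- the functional
  set φ : V (2 ^ k) → ℝ := fun x =>
    Real.cos ((2 * j : ℕ) * Real.pi * (((x.1.val : ℝ) + 1 / 2) / 2 ^ k)) / 4 ^ k with hφ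
  have hφ1 : ∀ x, |φ x| ≤ 1 / 4 ^ k := by
    intro x
    simp only [hφ]
    rw [abs_div, abs_of_pos (show (0 : ℝ) < 4 ^ k by positivity)]
    exact div_le_div_of_nonneg_right (Real.abs_cos_le_one _) (by positivity)
  have hfm : ∀ h : V (2 ^ k) → ℤ, fm k (2 * j) h = pr φ h := by
    intro h
    unfold fm pr
    rw [Finset.sum_div]
    refine Finset.sum_congr rfl fun x _ => ?_
    simp only [hφ]
    ring
  have f1 := hk₂ k hkk2
  have f2 := hUV k a hka φ hφ1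
  have f3 := hk₁ k hkk1 φ hφ1
  have f4 := h6 (2 ^ i) hκ k φ
  have f5 := exT_fm hb hκ hj hkk3
  have hfun : (fun h : V (2 ^ k) → ℤ => fm k (2 * j) h ^ 2) = fun h => pr φ h ^ 2 :=
    funext fun h => by rw [hfm]
  rw [hfun] at f1 f5
  rw [← hD] at f1
  rw [f5] at f4
  have key : (1 - δ / 2) * ((1 / 2) / D) - δ / (4 * 4 ^ i) - C * (2 : ℝ) ^ (-(c * i)) / 4 ^ i ≤
      Ghat b (2 ^ i) k j / (2 * 4 ^ k) := by
    linarith
  -- arithmetic
  have h4k : (0 : ℝ) < 4 ^ k := by positivity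
  have h4i : (0 : ℝ) < 4 ^ i := by positivity
  have h22 : ((2 : ℝ) ^ i) ^ 2 = 4 ^ i := by
    rw [← pow_mul, mul_comm, pow_mul]
    norm_num
  have heps : epsK (2 ^ i) k = 4 ^ i / 4 ^ k := by
    unfold epsK
    rw [h22]
  have hD2 : D = 4 ^ i * (1 + (2 * Real.pi * j / 2 ^ i) ^ 2 / Y) := by
    rw [hD, div_pow, h22]
    push_cast
    field_simp
  have hE : 0 < 1 + (2 * Real.pi * j / 2 ^ i) ^ 2 / Y := by
    have : 0 ≤ (2 * Real.pi * j / 2 ^ i) ^ 2 / Y := by positivity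
    linarith
  set E := 1 + (2 * Real.pi * j / 2 ^ i) ^ 2 / Y with hEd
  have hE1 : 1 ≤ E := by
    have : 0 ≤ (2 * Real.pi * j / 2 ^ i) ^ 2 / Y := by positivity
    rw [hEd]
    linarith
  rw [heps, div_le_iff₀ (by positivity)]
  rw [le_div_iff₀ (by positivity), hD2] at key
  have g1 : ((1 - δ / 2) * ((1 / 2) / (4 ^ i * E)) - δ / (4 * 4 ^ i) -
      C * (2 : ℝ) ^ (-(c * i)) / 4 ^ i) * (2 * 4 ^ k) * (4 ^ i / 4 ^ k) =
      (1 - δ / 2) / E - δ / 2 - 2 * C * (2 : ℝ) ^ (-(c * i)) := by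
    field_simp
    ring
  have g2 : (1 - δ / 2) / E ≥ 1 / E - δ / 2 := by
    have : (δ / 2) / E ≤ δ / 2 := div_le_self (by positivity) hE1
    have h10 : (1 - δ / 2) / E = 1 / E - (δ / 2) / E := by ring
    linarith
  have g3 := mul_le_mul_of_nonneg_right key (show (0 : ℝ) ≤ 4 ^ i / 4 ^ k by positivity)
  linarith

end Vale.Agent.P159.TM.H943
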