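import Vale.Agent.P159.TM.Spec.I
import Vale.Agent.P159.TM.H22.Base

/-!
The plane waves on the torus: the second moment of the mode `2 j` is `Ĝ / (2 n²)`.
-/

namespace Vale.Agent.P159.TM.H943

open Finset Vale.Agent.P159 Vale.Agent.P159.H353 Vale.Agent.P159.TM.SpecI Vale.Agent.P159.TM.H22

/-- sum of cosines in arithmetic progression over a full period -/
lemma sum_cos_prog (n : ℕ) (hn : 0 < n) (m : ℕ) (hm : ¬ (n ∣ m)) (θ : ℝ) :
    ∑ s ∈ range n, Real.cos (θ + s * (2 * Real.pi * m / n)) = 0 := by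
  have hn' : (n : ℝ) ≠ 0 := by exact_mod_cast hn.ne'
  have hnC : (n : ℂ) ≠ 0 := by exact_mod_cast hn.ne'
  set ζ : ℂ := Complex.exp (2 * Real.pi * Complex.I * m / n) with hζ
  have h1 : ζ ^ n = 1 := by
    rw [hζ, ← Complex.exp_nat_mul]
    have : (n : ℂ) * (2 * Real.pi * Complex.I * m / n) = m * (2 * Real.pi * Complex.I) := by
      field_simp
    rw [this]
    exact Complex.exp_nat_mul_two_pi_mul_I m
  have h2 : ζ ≠ 1 := by
    intro h
    rw [hζ, Complex.exp_eq_one_iff] at h
    obtain ⟨q, hq⟩ := h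
    have h3 : (m : ℂ) = q * n := by
      have hpi : (2 * Real.pi * Complex.I : ℂ) ≠ 0 := by
        simp [Real.pi_ne_zero, Complex.I_ne_zero]
      have : (2 * Real.pi * Complex.I : ℂ) * m = (2 * Real.pi * Complex.I) * (q * n) := by
        field_simp at hq
        linear_combination (2 * Real.pi * Complex.I : ℂ) * hq
      exact mul_left_cancel₀ hpi this
    have h4 : (m : ℤ) = q * n := by exact_mod_cast h3
    exact hm (by
      have : (n : ℤ) ∣ m := ⟨q, by rw [h4]; ring⟩
      exact_mod_cast this)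
  have h3 : ∑ s ∈ range n, ζ ^ s = 0 := by
    have := mul_neg_geom_sum ζ n
    rw [h1, sub_self] at this
    exact (mul_eq_zero.1 this).resolve_left (sub_ne_zero.2 (Ne.symm h2))
  have h4 : ∑ s ∈ range n, Complex.exp (Complex.I * θ) * ζ ^ s = 0 := by
    rw [← Finset.mul_sum, h3, mul_zero]
  have h5 := congrArg Complex.re h4
  rw [Complex.re_sum, Complex.zero_re] at h5
  rw [← h5]
  refine Finset.sum_congr rfl fun s _ => ?_
  rw [hζ, ← Complex.exp_nat_mul, ← Complex.exp_add]
  have : Complex.I * θ + s * (2 * Real.pi * Complex.I * m / n) =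
      ((θ + s * (2 * Real.pi * m / n) : ℝ) : ℂ) * Complex.I := by
    push_cast
    ring
  rw [this, Complex.exp_ofReal_mul_I_re]

lemma sum_zmod {n : ℕ} [NeZero n] (f : ℕ → ℝ) :
    ∑ s : ZMod n, f s.val = ∑ s ∈ range n, f s := by
  refine Finset.sum_bij' (fun s _ => s.val) (fun s _ => (s : ZMod n)) ?_ ?_ ?_ ?_ ?_
  · intro s _
    exact Finset.mem_range.2 (ZMod.val_lt s)
  · intro s _
    exact Finset.mem_univ _
  · intro s _
    exact ZMod.natCast_zmod_val s
  · intro s hs
    exact ZMod.val_cast_of_lt (Finset.mem_range.1 hs)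
  · intro s _
    rfl

/-- the wave of `fm` -/
noncomputable def cw (n j : ℕ) (t : ZMod n) : ℝ :=
  Real.cos (2 * Real.pi * j * (((t.val : ℝ) + 1 / 2) / n))

lemma sum_cw (n : ℕ) [NeZero n] (j : ℕ) (hj : ¬ (n ∣ 2 * j)) (z : ZMod n) :
    ∑ s : ZMod n, cw n j s * cw n j (s + z) =
      n / 2 * Real.cos (2 * Real.pi * j * (z.val : ℝ) / n) := by
  have hn : 0 < n := Nat.pos_of_ne_zero (NeZero.ne n)
  have hn' : (n : ℝ) ≠ 0 := by exact_mod_cast hn.ne'
  have key : ∀ s : ZMod n, cw n j s * cw n j (s + z) =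
      1 / 2 * Real.cos (2 * Real.pi * j * (z.val : ℝ) / n) +
      1 / 2 * Real.cos ((2 * Real.pi * j * ((z.val : ℝ) + 1) / n) +
        (s.val : ℝ) * (2 * Real.pi * (2 * j : ℕ) / n)) := by
    intro s
    have hq : ∃ q : ℕ, (s.val : ℝ) + z.val = ((s + z).val : ℝ) + n * q := by
      refine ⟨(s.val + z.val) / n, ?_⟩
      have h1 : (s + z).val = (s.val + z.val) % n := ZMod.val_add s z
      have h2 := (Nat.mod_add_div (s.val + z.val) n).symm
      rw [h1]
      exact_mod_cast h2
    obtain ⟨q, hq⟩ := hq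
    have h1 : cw n j (s + z) =
        Real.cos (2 * Real.pi * j * (((s.val : ℝ) + z.val + 1 / 2) / n)) := by
      unfold cw
      have : 2 * Real.pi * j * (((s.val : ℝ) + z.val + 1 / 2) / n) =
          2 * Real.pi * j * ((((s + z).val : ℝ) + 1 / 2) / n) + ((j * q : ℕ) : ℝ) * (2 * Real.pi) := by
        rw [hq]
        push_cast
        field_simp
        ring
      rw [this, Real.cos_add_nat_mul_two_pi]
    rw [h1]
    unfold cw
    have h2 : Real.cos (2 * Real.pi * j * (z.val : ℝ) / n) =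
        Real.cos (2 * Real.pi * j * (((s.val : ℝ) + 1 / 2) / n) -
          2 * Real.pi * j * (((s.val : ℝ) + z.val + 1 / 2) / n)) := by
      rw [← Real.cos_neg]
      congr 1
      field_simp
      ring
    have h3 : Real.cos ((2 * Real.pi * j * ((z.val : ℝ) + 1) / n) +
        (s.val : ℝ) * (2 * Real.pi * (2 * j : ℕ) / n)) =
        Real.cos (2 * Real.pi * j * (((s.val : ℝ) + 1 / 2) / n) +
          2 * Real.pi * j * (((s.val : ℝ) + z.val + 1 / 2) / n)) := by
      congr 1
      push_cast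
      field_simp
      ring
    rw [h2, h3, Real.cos_sub, Real.cos_add]
    ring
  rw [Finset.sum_congr rfl fun s _ => key s, Finset.sum_add_distrib, ← Finset.mul_sum,
    ← Finset.mul_sum]
  have h0 : ∑ s : ZMod n, Real.cos ((2 * Real.pi * j * ((z.val : ℝ) + 1) / n) +
        (s.val : ℝ) * (2 * Real.pi * (2 * j : ℕ) / n)) = 0 := by
    rw [sum_zmod (fun s : ℕ => Real.cos ((2 * Real.pi * j * ((z.val : ℝ) + 1) / n) +
        (s : ℝ) * (2 * Real.pi * (2 * j : ℕ) / n)))]
    exact sum_cos_prog n hn (2 * j) hj _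
  rw [h0, mul_zero, add_zero, Finset.sum_const, Finset.card_univ, ZMod.card]
  simp only [nsmul_eq_mul]
  ring

/-- the double sum over a translation invariant kernel -/
lemma sum_wave {n : ℕ} [NeZero n] (j : ℕ) (hj : ¬ (n ∣ 2 * j)) (G : V n → V n → ℝ)
    (hG : ∀ x y t, G (x + t) (y + t) = G x y) :
    ∑ x : V n, ∑ y : V n, (cw n j x.1 * cw n j y.1) * G x y =
      (n : ℝ) ^ 2 / 2 * ∑ z : V n, G 0 z * Real.cos (2 * Real.pi * j * (z.1.val : ℝ) / n) := by
  have h1 : ∀ x : V n, ∑ y : V n, (cw n j x.1 * cw n j y.1) * G x y =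
      ∑ z : V n, (cw n j x.1 * cw n j (x.1 + z.1)) * G 0 z := by
    intro x
    rw [← Equiv.sum_comp (Equiv.addLeft x)]
    refine Finset.sum_congr rfl fun z _ => ?_
    have h2 : G x (x + z) = G 0 z := by
      have := hG 0 z x
      rw [zero_add, add_comm z x] at this
      exact this
    simp only [Equiv.coe_addLeft, Prod.fst_add]
    rw [h2]
  rw [Finset.sum_congr rfl fun x _ => h1 x, Finset.sum_comm, Finset.mul_sum]
  refine Finset.sum_congr rfl fun z _ => ?_
  rw [← Finset.sum_mul, Fintype.sum_prod_type]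
  simp only
  rw [Finset.sum_congr rfl fun s _ => Finset.sum_const (cw n j s * cw n j (s + z.1)),
    ← Finset.smul_sum, sum_cw n j hj, Finset.card_univ, ZMod.card]
  simp only [nsmul_eq_mul]
  ring

end Vale.Agent.P159.TM.H943
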